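import Vale.Agent.N088.Defs
import Vale.Agent.P088I65.Main

/-!
# P088: the objects of the statement in the invariant layer of the development
-/

set_option linter.all false

open Bundle Manifold MeasureTheory Set Filter
open scoped ContDiff Matrix Topology

noncomputable section

namespace Vale.Agent.N088

open Vale.Agent.P088 Vale.Agent.P088.R2.H31
open Vale.Agent.P088.EYM (One SmS)
open Vale.Agent.P088I65 (bs met)

universe u

variable {n N : ℕ} [NeZero n] {M : Type u} [TopologicalSpace M]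
  [ChartedSpace (EuclideanHalfSpace n) M] [IsManifold (𝓡∂ n) ∞ M]

variable (n N M) in
/-- pairs -/
abbrev Pr := Pair (𝓡∂ n) M (Fib N →L[ℂ] Fib N)

/-- the hyperplane -/
abbrev hp (n : ℕ) [NeZero n] : Submodule ℝ (EuclideanSpace ℝ (Fin n)) := (ℝ ∙ bs n 0)ᗮ

/-- the connection in the invariant layer -/
def con (P : Pr n N M) : Connection (𝓡∂ n) N M where
  form := P.A
  smooth := fun p i => P.smooth.comp_contMDiffOn (P088I65.coordVec_smooth p i)
  skew := P.skew

theorem coordVec_self (x : M) (i : Fin n) : coordVec (𝓡∂ n) x x i = bs n i :=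
  cc_self (𝓡∂ n) x _

theorem ip_eq (P : Pr n N M) (u v : M → Fib N) (x : M) :
    ip (bs n) P u v x = pairing (met P.g) (con P) u v x := by
  unfold pairing gram
  simp only [coordVec_self]
  rfl

theorem data_iff {Γ : Set M} {f : M → Fib N} :
    Data (𝓡∂ n) (hp n) Γ f ↔ P088I65.Data n Γ f := Iff.rfl

theorem data_congr {Γ : Set M} {f f' : M → Fib N} (h : ∀ x ∈ (𝓡∂ n).boundary M, f x = f' x)
    (hf : Data (𝓡∂ n) (hp n) Γ f) : Data (𝓡∂ n) (hp n) Γ f' := by
  refine ⟨fun p => (hf.1 p).congr fun z hz => (h _ ?_).symm, ?_⟩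
  · refine (EYM.cLoc_bd p _ ((extChartAt (𝓡∂ n) p).map_target hz)).2 ?_
    rw [(extChartAt (𝓡∂ n) p).right_inv hz]
    exact P088I9.mem_W.1 z.2
  · have h1 : {x ∈ (𝓡∂ n).boundary M | f' x ≠ 0} = {x ∈ (𝓡∂ n).boundary M | f x ≠ 0} := by
      ext x
      exact and_congr_right fun hx => by rw [h x hx]
    rw [h1]
    exact hf.2

theorem ind_eq {Γ : Set M} {f : M → Fib N}
    (hf : closure {x ∈ (𝓡∂ n).boundary M | f x ≠ 0} ⊆ Γ) :
    ∀ x ∈ (𝓡∂ n).boundary M, f x = Γ.indicator f x := by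
  intro x hx
  by_cases h : x ∈ Γ
  · rw [indicator_of_mem h]
  · rw [indicator_of_notMem h]
    by_contra h0
    exact h (hf (subset_closure ⟨hx, h0⟩))

theorem data_of_bd {Γ : Set M} {f : M → Fib N} (hf : IsBdryData (𝓡∂ n) Γ f) :
    Data (𝓡∂ n) (hp n) Γ f := data_iff.2 (P088I9.res hf.smooth hf.supp)

theorem bd_of_data [T2Space M] [CompactSpace M] {Γ : Set M} {f : M → Fib N}
    (hf : Data (𝓡∂ n) (hp n) Γ f) :
    ∃ F, IsBdryData (𝓡∂ n) Γ F ∧ ∀ x ∈ (𝓡∂ n).boundary M, F x = f x := by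
  obtain ⟨F, hF, h⟩ := P088I9.ext (data_iff.1 hf)
  exact ⟨F, ⟨hF, (data_congr (fun x hx => (h x hx).symm) hf).2⟩, h⟩

variable [MeasurableSpace M]

theorem isVol_iff (P : Pr n N M) : IsVol (bs n) P = P088I65.IsVol P.g := rfl

theorem sol_congr (P : Pr n N M) {f f' : M → Fib N}
    (h : ∀ x ∈ (𝓡∂ n).boundary M, f x = f' x) : sol (bs n) P f = sol (bs n) P f' := by
  unfold sol
  congr 1
  funext u
  unfold Solves
  congr 2
  exact propext (forall₂_congr fun x hx => by rw [h x hx])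

variable [BorelSpace M] [CompactSpace M]

/-- the pair in the invariant layer -/
def one (P : Pr n N M) : One n N M :=
  ⟨met P.g, P088I65.vol P.g, con P, (P088I65.isVol_iff P.g _).1
    (Classical.epsilon_spec (P088I65.existsUnique_vol P.g).exists)⟩

theorem energy_eq (P : Pr n N M) (u v : M → Fib N) : energy (bs n) P u v = (one P).E u v := by
  unfold energy
  simp only [ip_eq]
  rfl

variable [T2Space M]

theorem solves_iff (P : Pr n N M) (f u : M → Fib N) :
    Solves (bs n) P f u ↔ (one P).Harm f u := by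
  constructor
  · rintro ⟨hu, hw, hb⟩
    obtain ⟨w, hw1, h⟩ := P088W19.adj (one P) hu
    have h2 : w = 0 := P088W19.uniq (one P) hw1 fun φ hφ hs => by
      rw [← h φ hφ (P088I65.zero_bd hs), ← energy_eq]
      exact hw φ hφ hs
    refine ⟨hu, hb, fun φ hφ h0 => (h φ hφ h0).trans ?_⟩
    simp [h2]
  · rintro ⟨hu, hb, hw⟩
    refine ⟨hu, fun φ hφ hs => ?_, hb⟩
    rw [energy_eq]
    exact hw φ hφ (P088I65.zero_bd hs)

variable [ConnectedSpace M]

theorem sol_eq (hb : ((𝓡∂ n).boundary M).Nonempty) (P : Pr n N M) {f F u : M → Fib N}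
    (h : (one P).Harm F u) (hF : ∀ x ∈ (𝓡∂ n).boundary M, F x = f x) : sol (bs n) P f = u := by
  rw [← sol_congr P hF]
  exact P088I65.harm_unique _ hb ((solves_iff P F _).1
    (Classical.epsilon_spec ⟨u, (solves_iff P F u).2 h⟩)) h

theorem hasSol (hn : 2 ≤ n) (hb : ((𝓡∂ n).boundary M).Nonempty) (P : One n N M) (Γ : Set M) :
    P.HasSol Γ := fun f hf => DM.solvM n N M P hn hb f hf.smooth

theorem wellDef (hn : 2 ≤ n) (hb : ((𝓡∂ n).boundary M).Nonempty) (Γ : Set M) :
    WellDef (𝓡∂ n) (Fib N) (Fib N →L[ℂ] Fib N) (bs n) (hp n) Γ := by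
  intro P
  refine ⟨P088I65.existsUnique_vol P.g, fun μ hμ u v hu hv => ?_, fun f hf => ?_⟩
  · have h1 : ip (bs n) P u v = pairing (met P.g) (con P) u v := funext (ip_eq P u v)
    have h2 : μ = (one P).μ := (P088I65.existsUnique_vol P.g).unique hμ
      (Classical.epsilon_spec (P088I65.existsUnique_vol P.g).exists)
    rw [h1, h2]
    exact P088I65.integrable_of (one P) (continuous_pairing _ _ hu hv)
  · obtain ⟨F, hF, h⟩ := bd_of_data hf
    obtain ⟨u, hu⟩ := hasSol hn hb (one P) Γ F hF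
    have h1 : (one P).Harm f u := ⟨hu.1, fun x hx => (hu.2 x hx).trans (h x hx), hu.3⟩
    exact ⟨u, (solves_iff P f u).2 h1, fun v hv =>
      P088I65.harm_unique _ hb ((solves_iff P f v).1 hv) h1⟩

end Vale.Agent.N088
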