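import Vale.Agent.N088.Ode

/-!
# P088: Christoffel symbols and Ricci tensor of a conformal metric
-/

set_option linter.all false

open Set Filter Topology Asymptotics
open scoped ContDiff

noncomputable section

namespace Vale.Agent.N088

open Vale.Agent.P088.EYM

variable {n : ℕ} [NeZero n] {D : Set (E n)} {σ : E n → ℝ}
  {G : E n → Matrix (Fin n) (Fin n) ℝ} {x : E n}

/-- the metric `e^{2σ} G` -/
def cf (σ : E n → ℝ) (G : E n → Matrix (Fin n) (Fin n) ℝ) (x : E n) : Matrix (Fin n) (Fin n) ℝ :=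
  Real.exp (2 * σ x) • G x

/-- the gradient of `σ` -/
def tv (σ : E n → ℝ) (G : E n → Matrix (Fin n) (Fin n) ℝ) (k : Fin n) (x : E n) : ℝ :=
  ∑ l, (G x)⁻¹ k l * pd l σ x

/-- Kronecker's symbol -/
def dl (i j : Fin n) : ℝ := if i = j then 1 else 0

/-- the difference of the Christoffel symbols -/
def Tc (σ : E n → ℝ) (G : E n → Matrix (Fin n) (Fin n) ℝ) (k i j : Fin n) (x : E n) : ℝ :=
  dl k i * pd j σ x + dl k j * pd i σ x - G x i j * tv σ G k x

omit [NeZero n] in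
theorem sum_dl (f : Fin n → ℝ) (j : Fin n) : ∑ i, dl i j * f i = f j := by
  simp [dl]

omit [NeZero n] in
theorem sum_dl' (f : Fin n → ℝ) (j : Fin n) : ∑ i, dl j i * f i = f j := by
  simp [dl]

omit [NeZero n] in
theorem psym {A : Matrix (Fin n) (Fin n) ℝ} (h : A.PosDef) (a b : Fin n) : A a b = A b a := by
  have h1 := h.isHermitian.apply a b
  rw [← h1]
  rfl

omit [NeZero n] in
theorem inv_mul_dl {A : Matrix (Fin n) (Fin n) ℝ} (h : A.PosDef) (k j : Fin n) :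
    ∑ l, A⁻¹ k l * A l j = dl k j := by
  rw [← Matrix.mul_apply, Matrix.nonsing_inv_mul _ h.det_pos.ne'.isUnit, Matrix.one_apply, dl]

omit [NeZero n] in
theorem mul_inv_dl {A : Matrix (Fin n) (Fin n) ℝ} (h : A.PosDef) (k j : Fin n) :
    ∑ l, A k l * A⁻¹ l j = dl k j := by
  rw [← Matrix.mul_apply, Matrix.mul_nonsing_inv _ h.det_pos.ne'.isUnit, Matrix.one_apply, dl]

omit [NeZero n] in
theorem exp_sm (hσ : ContDiffOn ℝ ∞ σ D) : ContDiffOn ℝ ∞ (fun x => Real.exp (2 * σ x)) D :=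
  (contDiffOn_const.mul hσ).exp

omit [NeZero n] in
theorem cf_sm (hσ : ContDiffOn ℝ ∞ σ D) (hG : SmM G D) : SmM (cf σ G) D :=
  fun i j => (exp_sm hσ).mul (hG i j)

omit [NeZero n] in
theorem cf_pos (hp : (G x).PosDef) : (cf σ G x).PosDef := hp.smul (Real.exp_pos _)

theorem pd_exp (hD : RelOpen D) (hσ : ContDiffOn ℝ ∞ σ D) (hx : x ∈ D) (i : Fin n) :
    pd i (fun y => Real.exp (2 * σ y)) x = Real.exp (2 * σ x) * (2 * pd i σ x) := by
  have h1 := ((hD.hasD hx hσ (by simp)).const_mul 2).exp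
  rw [pd_of_has (hD.subset hx) h1 i]
  rfl

theorem tv_sm (hD : RelOpen D) (hσ : ContDiffOn ℝ ∞ σ D) (hG : SmM G D)
    (hp : ∀ x ∈ D, (G x).PosDef) (k : Fin n) : ContDiffOn ℝ ∞ (tv σ G k) D :=
  ContDiffOn.sum fun l _ => (hD.smM_inv hG hp k l).mul (hD.pd_smooth hσ l)

theorem Tc_sm (hD : RelOpen D) (hσ : ContDiffOn ℝ ∞ σ D) (hG : SmM G D)
    (hp : ∀ x ∈ D, (G x).PosDef) (k i j : Fin n) : ContDiffOn ℝ ∞ (Tc σ G k i j) D :=
  ((contDiffOn_const.mul (hD.pd_smooth hσ j)).add (contDiffOn_const.mul (hD.pd_smooth hσ i))).sub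
    ((hG i j).mul (tv_sm hD hσ hG hp k))

/-- The Christoffel symbols of `e^{2σ} G`. -/
theorem chr_cf (hD : RelOpen D) (hσ : ContDiffOn ℝ ∞ σ D) (hG : SmM G D)
    (hp : ∀ x ∈ D, (G x).PosDef) (hx : x ∈ D) (k i j : Fin n) :
    chr (cf σ G) k i j x = chr G k i j x + Tc σ G k i j x := by
  set e := Real.exp (2 * σ x) with he
  have he0 : e ≠ 0 := (Real.exp_pos _).ne'
  have h1 : (cf σ G x)⁻¹ = e⁻¹ • (G x)⁻¹ := by
    refine Matrix.inv_eq_left_inv ?_
    rw [cf, ← he, Matrix.smul_mul, Matrix.mul_smul, smul_smul, inv_mul_cancel₀ he0, one_smul,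
      Matrix.nonsing_inv_mul _ (hp x hx).det_pos.ne'.isUnit]
  have h2 : ∀ a b c, pd a (fun y => cf σ G y b c) x =
      e * pd a (fun y => G y b c) x + e * (2 * pd a σ x) * G x b c := by
    intro a b c
    have h3 := hD.pd_mul (exp_sm hσ) (hG b c) hx a
    rw [pd_exp hD hσ hx] at h3
    exact h3
  unfold chr Tc tv
  simp only [h1, h2, Matrix.smul_apply, smul_eq_mul]
  rw [← inv_mul_dl (hp x hx) k i, ← inv_mul_dl (hp x hx) k j]
  simp only [Finset.mul_sum, Finset.sum_mul, ← Finset.sum_add_distrib, ← Finset.sum_sub_distrib]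
  refine Finset.sum_congr rfl fun l _ => ?_
  field_simp
  ring

theorem sum_Tc (hp : (G x).PosDef) (k : Fin n) : ∑ i, Tc σ G i i k x = n * pd k σ x := by
  unfold Tc
  have h1 : ∑ i, G x i k * tv σ G i x = pd k σ x := by
    unfold tv
    simp only [Finset.mul_sum]
    rw [Finset.sum_comm, ← sum_dl' (fun l => pd l σ x) k]
    refine Finset.sum_congr rfl fun l _ => ?_
    rw [← mul_inv_dl hp k l, Finset.sum_mul]
    refine Finset.sum_congr rfl fun i _ => ?_
    rw [psym hp i k]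
    ring
  rw [Finset.sum_sub_distrib, Finset.sum_add_distrib, h1, sum_dl (fun i => pd i σ x) k]
  simp [dl]

/-- The second order terms in the difference of the Ricci tensors. -/
theorem div_Tc (hD : RelOpen D) (hσ : ContDiffOn ℝ ∞ σ D) (hG : SmM G D)
    (hp : ∀ x ∈ D, (G x).PosDef) (hx : x ∈ D) (j k : Fin n) :
    ∑ i, (pd i (Tc σ G i j k) x - pd j (Tc σ G i i k) x) =
      -(((n : ℝ) - 2) * pd j (pd k σ) x + G x j k * ∑ i, pd i (tv σ G i) x) -
        ∑ i, pd i (fun y => G y j k) x * tv σ G i x := by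
  have h1 : ∑ i, pd j (Tc σ G i i k) x = n * pd j (pd k σ) x := by
    rw [← hD.pd_sum Finset.univ (fun i _ => Tc_sm hD hσ hG hp i i k) hx j,
      hD.pd_congr (g := fun y => (n : ℝ) • pd k σ y) (fun y hy => sum_Tc (hp y hy) k) hx j,
      hD.pd_const_smul _ (hD.pd_smooth hσ k) hx j, smul_eq_mul]
  have h2 : ∀ i, pd i (Tc σ G i j k) x = dl i j * pd i (pd k σ) x + dl i k * pd i (pd j σ) x -
      (G x j k * pd i (tv σ G i) x + pd i (fun y => G y j k) x * tv σ G i x) := by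
    intro i
    have a1 := hD.pd_const_smul (dl i j) (hD.pd_smooth hσ k) hx i
    have a2 := hD.pd_const_smul (dl i k) (hD.pd_smooth hσ j) hx i
    simp only [smul_eq_mul] at a1 a2
    unfold Tc
    rw [hD.pd_sub ((contDiffOn_const.mul (hD.pd_smooth hσ k)).add
        (contDiffOn_const.mul (hD.pd_smooth hσ j))) ((hG j k).mul (tv_sm hD hσ hG hp i)) hx i,
      hD.pd_add (contDiffOn_const.mul (hD.pd_smooth hσ k))
        (contDiffOn_const.mul (hD.pd_smooth hσ j)) hx i, a1, a2,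
      hD.pd_mul (hG j k) (tv_sm hD hσ hG hp i) hx i]
  rw [Finset.sum_sub_distrib, h1]
  simp only [h2]
  rw [Finset.sum_sub_distrib, Finset.sum_add_distrib, Finset.sum_add_distrib,
    sum_dl (fun i => pd i (pd k σ) x) j, sum_dl (fun i => pd i (pd j σ) x) k,
    hD.pd_comm hσ hx k j, ← Finset.mul_sum]
  ring

theorem div_tv (hD : RelOpen D) (hσ : ContDiffOn ℝ ∞ σ D) (hG : SmM G D)
    (hp : ∀ x ∈ D, (G x).PosDef) (hx : x ∈ D) :
    ∑ i, pd i (tv σ G i) x = ∑ i, ∑ l, (G x)⁻¹ i l * pd i (pd l σ) x +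
      ∑ i, ∑ l, pd i (fun y => (G y)⁻¹ i l) x * pd l σ x := by
  rw [← Finset.sum_add_distrib]
  refine Finset.sum_congr rfl fun i _ => ?_
  unfold tv
  rw [hD.pd_sum Finset.univ (fun l _ => (hD.smM_inv hG hp i l).mul (hD.pd_smooth hσ l)) hx i,
    ← Finset.sum_add_distrib]
  exact Finset.sum_congr rfl fun l _ => hD.pd_mul (hD.smM_inv hG hp i l) (hD.pd_smooth hσ l) hx i

theorem ric_sm (hD : RelOpen D) (hG : SmM G D) (hp : ∀ x ∈ D, (G x).PosDef) (j k : Fin n) :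
    ContDiffOn ℝ ∞ (ric G j k) D := by
  have h := Ric_chr_smooth hD hG hp
  exact ContDiffOn.sum fun i _ => ((hD.pd_smooth (h i j k) i).sub (hD.pd_smooth (h i i k) j)).add
    (ContDiffOn.sum fun l _ => ((h i i l).mul (h l j k)).sub ((h i j l).mul (h l i k)))

variable {x₀ : E n} {w : E n → ℝ}

/-- If `dσ` is small and the Ricci tensors of `G` and `e^{2σ} G` are near, then the Hessian of `σ`
is small. -/
theorem hess_small (hn : 3 ≤ n) (hD : RelOpen D) (hσ : ContDiffOn ℝ ∞ σ D) (hG : SmM G D)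
    (hp : ∀ x ∈ D, (G x).PosDef) (hx : x₀ ∈ D) (hs : ∀ k, Cg x₀ w (pd k σ) fun _ => 0)
    (hc : ∀ k i j, Cg x₀ w (chr (cf σ G) k i j) (chr G k i j))
    (hr : ∀ j k, Cg x₀ w (ric (cf σ G) j k) (ric G j k)) (j k : Fin n) :
    Cg x₀ w (pd j (pd k σ)) fun _ => 0 := by
  have hΓ := Ric_chr_smooth hD hG hp
  have hΓ' := Ric_chr_smooth hD (cf_sm hσ hG) fun x hx => cf_pos (σ := σ) (hp x hx)
  have ht : ∀ i, Cg x₀ w (tv σ G i) fun _ => 0 := fun i =>
    Cg.sum_zero fun l => Cg.mul_zero hD hx (hD.smM_inv hG hp i l) (hs l)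
  set τ : E n → ℝ := fun x => ∑ i, pd i (tv σ G i) x with hτ
  have hτs : ContDiffOn ℝ ∞ τ D :=
    ContDiffOn.sum fun i _ => hD.pd_smooth (tv_sm hD hσ hG hp i) i
  -- the equation for the Hessian
  have h1 : ∀ j k, Cg x₀ w (fun x => ((n : ℝ) - 2) * pd j (pd k σ) x + G x j k * τ x)
      fun _ => 0 := by
    intro j k
    have a1 : Cg x₀ w
        (fun x => ∑ i, ∑ l, (chr (cf σ G) i i l x * chr (cf σ G) l j k x -
          chr (cf σ G) i j l x * chr (cf σ G) l i k x))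
        (fun x => ∑ i, ∑ l, (chr G i i l x * chr G l j k x - chr G i j l x * chr G l i k x)) :=
      Cg.sum fun i => Cg.sum fun l =>
        ((hc i i l).mul hD hx (hc l j k) (hΓ i i l) (hΓ' l j k)).sub
          ((hc i j l).mul hD hx (hc l i k) (hΓ i j l) (hΓ' l i k))
    have a2 : Cg x₀ w (fun x => ∑ i, pd i (fun y => G y j k) x * tv σ G i x) fun _ => 0 :=
      Cg.sum_zero fun i => Cg.mul_zero hD hx (hD.pd_smooth (hG j k) i) (ht i)
    have a3 := IsBigO.sub (IsBigO.sub a1 (hr j k)) (Cg.zero_iff.1 a2)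
    refine Cg.zero_iff.2 (a3.congr' ?_ EventuallyEq.rfl)
    filter_upwards [hD.mem_nhds hx] with x hx
    have b1 : ∀ a i j k, pd a (chr (cf σ G) i j k) x =
        pd a (chr G i j k) x + pd a (Tc σ G i j k) x := by
      intro a i j k
      rw [← hD.pd_add (hΓ i j k) (Tc_sm hD hσ hG hp i j k) hx a]
      exact hD.pd_congr (fun y hy => chr_cf hD hσ hG hp hy i j k) hx a
    have b2 := div_Tc hD hσ hG hp hx j k
    unfold ric
    simp only [b1, Finset.sum_add_distrib, Finset.sum_sub_distrib] at b2 ⊢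
    linarith
  -- the trace
  have h2 : Cg x₀ w τ fun _ => 0 := by
    have a1 : Cg x₀ w (fun x => ∑ j, ∑ k, (G x)⁻¹ j k *
        (((n : ℝ) - 2) * pd j (pd k σ) x + G x j k * τ x)) fun _ => 0 :=
      Cg.sum_zero fun j => Cg.sum_zero fun k => Cg.mul_zero hD hx (hD.smM_inv hG hp j k) (h1 j k)
    have a2 : Cg x₀ w (fun x => ∑ i, ∑ l, pd i (fun y => (G y)⁻¹ i l) x * pd l σ x) fun _ => 0 :=
      Cg.sum_zero fun i => Cg.sum_zero fun l =>
        Cg.mul_zero hD hx (hD.pd_smooth (hD.smM_inv hG hp i l) i) (hs l)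
    have a3 := ((Cg.zero_iff.1 a1).add ((Cg.zero_iff.1 a2).const_mul_left ((n : ℝ) - 2))).const_mul_left
      (2 * (n : ℝ) - 2)⁻¹
    refine Cg.zero_iff.2 (a3.congr' ?_ EventuallyEq.rfl)
    filter_upwards [hD.mem_nhds hx] with x hx
    have b1 := div_tv hD hσ hG hp hx
    have b2 : ∑ j, ∑ k, (G x)⁻¹ j k * G x j k = n := by
      have b3 : ∀ j, ∑ k, (G x)⁻¹ j k * G x j k = 1 := by
        intro j
        have b4 := inv_mul_dl (hp x hx) j j
        rw [dl, if_pos rfl] at b4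
        rw [← b4]
        exact Finset.sum_congr rfl fun k _ => by rw [psym (hp x hx) j k]
      simp [b3]
    have b3 : ∑ j, ∑ k, (G x)⁻¹ j k * (((n : ℝ) - 2) * pd j (pd k σ) x + G x j k * τ x) =
        ((n : ℝ) - 2) * ∑ j, ∑ k, (G x)⁻¹ j k * pd j (pd k σ) x +
          (∑ j, ∑ k, (G x)⁻¹ j k * G x j k) * τ x := by
      simp only [Finset.mul_sum, Finset.sum_mul, ← Finset.sum_add_distrib]
      exact Finset.sum_congr rfl fun j _ => Finset.sum_congr rfl fun k _ => by ring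
    have b4 : (3 : ℝ) ≤ n := by exact_mod_cast hn
    have b5 : 2 * (n : ℝ) - 2 ≠ 0 := by linarith
    have b6 : τ x = ∑ i, pd i (tv σ G i) x := rfl
    rw [b3, b2, inv_mul_eq_iff_eq_mul₀ b5]
    rw [← b6] at b1
    rw [eq_sub_of_add_eq b1.symm]
    ring
  have b4 : (3 : ℝ) ≤ n := by exact_mod_cast hn
  have b5 : (n : ℝ) - 2 ≠ 0 := by linarith
  have a3 := ((Cg.zero_iff.1 (h1 j k)).sub
    (Cg.zero_iff.1 (Cg.mul_zero hD hx (hG j k) h2))).const_mul_left ((n : ℝ) - 2)⁻¹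
  refine Cg.zero_iff.2 (a3.congr_left fun x => ?_)
  rw [inv_mul_eq_iff_eq_mul₀ b5]
  ring

end Vale.Agent.N088
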