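import Mathlib.Geometry.Manifold.VectorBundle.Riemannian
import Mathlib.Geometry.Manifold.VectorBundle.Tangent
import Mathlib.Geometry.Manifold.Instances.Real
import Mathlib.Geometry.Manifold.Diffeomorph
import Mathlib.Geometry.Manifold.MFDeriv.Defs
import Mathlib.Geometry.Manifold.IsManifold.InteriorBoundary
import Mathlib.Analysis.InnerProductSpace.Adjoint
import Mathlib.MeasureTheory.Measure.Haar.InnerProductSpace
import Mathlib.MeasureTheory.Integral.Bochner.Basic

/-!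
# P088: metrics, unitary connections and the data on a boundary patch (definitions)

The definitions are written for a model `I` on `E` with basis `b` and boundary hyperplane `S`, a
fibre `F` and an algebra `R` which acts on `F`. The hand-in takes the half space of `E = ℝ^n`, the
standard basis, the hyperplane `y_0 = 0`, `F = ℂ^N` and the endomorphisms `R` of `ℂ^N`.
-/

open Bundle Manifold MeasureTheory Set
open scoped ContDiff

noncomputable section

namespace Vale.Agent.N088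

variable {E : Type} [NormedAddCommGroup E] [NormedSpace ℝ E] {H : Type} [TopologicalSpace H]
  (I : ModelWithCorners ℝ E H) {M : Type*} [TopologicalSpace M] [ChartedSpace H M]
  {M' : Type*} [TopologicalSpace M'] [ChartedSpace H M']
  {F : Type} [NormedAddCommGroup F] [NormedSpace ℝ F]

/-- `Γ` is a nonempty relatively open subset of `∂M`. -/
def Patch (Γ : Set M) : Prop := Γ.Nonempty ∧ ∃ O, IsOpen O ∧ Γ = O ∩ I.boundary M

/-- `u` is smooth up to the boundary. -/
def Smooth (u : M → F) : Prop := ContMDiff I 𝓘(ℝ, F) ∞ u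

/-- The differential `du`. -/
def dif (u : M → F) (x : M) (v : TangentSpace I x) : F := mfderiv I 𝓘(ℝ, F) u x v

/-- `f ∈ C_c^∞(Γ; F)`, extended by zero to `∂M` (the values off `∂M` play no role): `f` is smooth
in the charts of `∂M`, which are the restrictions of the charts of `M` to the hyperplane `S`, and
its support in `∂M` lies in `Γ`. -/
def Data (S : Submodule ℝ E) (Γ : Set M) (f : M → F) : Prop :=
  (∀ p : M, ContDiffOn ℝ ∞ (fun z : S => f ((extChartAt I p).symm z))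
    {z | z.1 ∈ (extChartAt I p).target}) ∧
  closure {x ∈ I.boundary M | f x ≠ 0} ⊆ Γ

variable [IsManifold I ∞ M] [IsManifold I ∞ M'] (M)
  (R : Type) [NormedAddCommGroup R] [NormedSpace ℝ R] [Monoid R] [StarMul R]

/-- A Riemannian metric `g` and a `1`-form `A` with skew-adjoint values, both smooth up to the
boundary. -/
structure Pair where
  g : ContMDiffRiemannianMetric I ∞ E fun x : M => TangentSpace I x
  A : ∀ x : M, TangentSpace I x →L[ℝ] R
  smooth : ContMDiff I.tangent 𝓘(ℝ, R) ∞ fun p : TangentBundle I M => A p.1 p.2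
  skew : ∀ x v, star (A x v) = -A x v

variable {I M R}

/-- `g_x(v, w)`. -/
def Pair.met (P : Pair I M R) (x : M) (v w : TangentSpace I x) : ℝ := P.g.inner x v w

/-- `A_x(v)`. -/
def Pair.con (P : Pair I M R) (x : M) (v : TangentSpace I x) : R := P.A x v

/-- `Φ : M' → M` is a diffeomorphism, `U : M' → U(N)` is smooth, `Φ = ψ` and `U = I` on `Γ'`,
`g' = Φ^* g` and `A' = U⁻¹ (Φ^* A) U + U⁻¹ dU`. -/
def Rel (Γ' : Set M') (ψ : M' → M) (P : Pair I M R) (P' : Pair I M' R)
    (Φ : Diffeomorph I I M' M ∞) (U : M' → unitary R) : Prop :=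
  Smooth I (fun x => (U x).1) ∧ (∀ x ∈ Γ', Φ x = ψ x ∧ U x = 1) ∧
  (∀ x v w, P'.met x v w = P.met (Φ x) (mfderiv I I Φ x v) (mfderiv I I Φ x w)) ∧
  ∀ x v, P'.con x v = (U x)⁻¹.1 * P.con (Φ x) (mfderiv I I Φ x v) * (U x).1 +
    (U x)⁻¹.1 * dif I (fun x => (U x).1) x v

variable [SMul R F] [Inner ℂ F] {ι : Type} [Fintype ι] [DecidableEq ι] (b : ι → E)

/-- `d_A u = du + A u`. -/
def dA (P : Pair I M R) (u : M → F) (x : M) (v : TangentSpace I x) : F :=
  dif I u x v + P.con x v • u x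

/-- `⟨d_A u, d_A v⟩_g = ∑ g^{ij} ⟨d_A u (b_i), d_A v (b_j)⟩`, with the basis `b` of `T_x M = E`. -/
def ip (P : Pair I M R) (u v : M → F) (x : M) : ℂ :=
  ∑ i, ∑ j, (((Matrix.of fun i j => P.met x (b i) (b j))⁻¹ i j : ℝ) : ℂ) *
    inner ℂ (dA P u x (b i)) (dA P v x (b j))

variable [MeasurableSpace M] [MeasurableSpace M'] [MeasureSpace E]

/-- `μ` is `√(det g(∂_i, ∂_j)) dy` in every chart. -/
def IsVol (P : Pair I M R) (μ : Measure M) : Prop :=
  ∀ (p : M) (s : Set M), MeasurableSet s → s ⊆ (extChartAt I p).source →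
    μ s = ∫⁻ y in extChartAt I p '' s,
      let D := mfderivWithin 𝓘(ℝ, E) I (extChartAt I p).symm (range I) y
      ENNReal.ofReal √(Matrix.det (Matrix.of fun i j => P.met _ (D (b i)) (D (b j))))

/-- `∫_M ⟨d_A u, d_A v⟩_g dV_g`. -/
def energy (P : Pair I M R) (u v : M → F) : ℂ :=
  ∫ x, ip b P u v x ∂Classical.epsilon (IsVol b P)

/-- `u` is smooth, `d_A^* d_A u = 0` in `M` and `u = f` on `∂M`. -/
def Solves (P : Pair I M R) (f u : M → F) : Prop :=
  Smooth I u ∧ (∀ φ, Smooth I φ → tsupport φ ⊆ I.interior M → energy b P u φ = 0) ∧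
    ∀ x ∈ I.boundary M, u x = f x

/-- The solution `u_f`. -/
def sol (P : Pair I M R) (f : M → F) : M → F := Classical.epsilon (Solves b P f)

/-- `⟨Λ_{g,A} f, h⟩ = ∫_M ⟨d_A u_f, d_A u_h⟩_g dV_g`. -/
def Lam (P : Pair I M R) (f h : M → F) : ℂ := energy b P (sol b P f) (sol b P h)

variable (F) (S : Submodule ℝ E)

/-- `Λ_{g₁,A₁,Γ} = Λ_{g₂,A₂,Γ}`. -/
def Same (Γ : Set M) (P₁ P₂ : Pair I M R) : Prop :=
  ∀ f h : M → F, Data I S Γ f → Data I S Γ h → Lam b P₁ f h = Lam b P₂ f h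

variable (I R)

/-- The volume, the integral and the solutions `u_f` are well defined. -/
def WellDef (Γ : Set M) : Prop :=
  ∀ P : Pair I M R, (∃! μ, IsVol b P μ) ∧
    (∀ μ, IsVol b P μ → ∀ u v : M → F, Smooth I u → Smooth I v → Integrable (ip b P u v) μ) ∧
    ∀ f : M → F, Data I S Γ f → ∃! u, Solves b P f u

/-- Conformal metrics: no diffeomorphism. -/
def Conformal (Γ : Set M) : Prop :=
  ∀ P₁ P₂ : Pair I M R, Same F b S Γ P₁ P₂ → ∃ Φ U, Rel Γ id P₁ P₂ Φ U ∧
    ∀ (W : Set M) (c : M → ℝ), IsOpen W → IsPreconnected W → (W ∩ Γ).Nonempty →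
      (∀ x ∈ W, ∀ v w, P₂.met x v w = c x * P₁.met x v w) → ∀ x ∈ W, c x = 1 ∧ Φ x = x

/-- Two manifolds. -/
def TwoManifolds (Γ : Set M) (Γ' : Set M') : Prop :=
  ∀ ψ : M' → M, BijOn ψ Γ' Γ →
    (∀ f : M → F, Data I S Γ (Γ.indicator f) ↔ Data I S Γ' (Γ'.indicator (f ∘ ψ))) →
    ∀ (P : Pair I M R) (P' : Pair I M' R),
      ((∀ f h : M → F, Data I S Γ f → Data I S Γ h →
        Lam b P f h = Lam b P' (Γ'.indicator (f ∘ ψ)) (Γ'.indicator (h ∘ ψ))) ↔
        ∃ Φ U, Rel Γ' ψ P P' Φ U) ∧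
      ∀ Φ U, Rel Γ' ψ P P' Φ U → (∀ Φ₁ U₁, Rel Γ' ψ P P' Φ₁ U₁ → Φ₁ = Φ ∧ U₁ = U) ∧
        ∀ f : M → F, Data I S Γ f → ∀ x,
          sol b P f (Φ x) = (U x).1 • sol b P' (Γ'.indicator (f ∘ ψ)) x

end Vale.Agent.N088

namespace Vale.Agent.N088

universe u

variable {E : Type} [NormedAddCommGroup E] [NormedSpace ℝ E] {H : Type} [TopologicalSpace H]
  (I : ModelWithCorners ℝ E H) {M : Type u} [TopologicalSpace M] [ChartedSpace H M]
  [IsManifold I ∞ M] [MeasurableSpace M] [MeasureSpace E] (F : Type) [NormedAddCommGroup F]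
  [InnerProductSpace ℂ F] [CompleteSpace F] [NormedSpace ℝ F] [SMulCommClass ℂ ℝ F]
  {ι : Type} [Fintype ι] [DecidableEq ι] (b : ι → E) (S : Submodule ℝ E) (Γ : Set M)

/-- Question 1: pairs with the same data on `Γ` are related. -/
def Question : Prop :=
  ∀ P₁ P₂ : Pair I M (F →L[ℂ] F), Same F b S Γ P₁ P₂ → ∃ Φ U, Rel Γ id P₁ P₂ Φ U

/-- The three statements beyond Question 1; `M'` is any compact connected manifold with a patch
`Γ'`. -/
def More : Prop :=
  WellDef I F (F →L[ℂ] F) b S Γ ∧ Conformal I F (F →L[ℂ] F) b S Γ ∧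
    ∀ (M' : Type u) [TopologicalSpace M'] [ChartedSpace H M'] [IsManifold I ∞ M'] [T2Space M']
      [CompactSpace M'] [ConnectedSpace M'] [MeasurableSpace M'] [BorelSpace M'] (Γ' : Set M'),
      Patch I Γ' → TwoManifolds I F (F →L[ℂ] F) b S Γ Γ'

end Vale.Agent.N088
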