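import Vale.Agent.N088.Conf

/-!
# P088: a conformal map is determined by its jet of order two, local form
-/

set_option linter.all false

open Set Filter Topology Asymptotics
open scoped ContDiff

noncomputable section

namespace Vale.Agent.N088

open Vale.Agent.P088.EYM

variable {n : ℕ} [NeZero n] {D D' : Set (E n)} {σ : E n → ℝ}
  {G : E n → Matrix (Fin n) (Fin n) ℝ} {X : E n → E n} {x₀ : E n}

/-- `X : D → D'` is a smooth map with `X^* G = e^{2σ} G`. -/
structure CM (D D' : Set (E n)) (G : E n → Matrix (Fin n) (Fin n) ℝ) (X : E n → E n)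
    (σ : E n → ℝ) : Prop where
  hD : RelOpen D
  hD' : RelOpen D'
  sub : D ⊆ D'
  smG : SmM G D'
  pos : ∀ x ∈ D', (G x).PosDef
  smX : ContDiffOn ℝ ∞ X D
  maps : MapsTo X D D'
  smσ : ContDiffOn ℝ ∞ σ D
  pull : GPull (cf σ G) G D X

theorem CM.smG' (h : CM D D' G X σ) : SmM G D := fun i j => (h.smG i j).mono h.sub

theorem CM.pos' (h : CM D D' G X σ) : ∀ x ∈ D, (G x).PosDef := fun x hx => h.pos x (h.sub hx)

theorem CM.cpos (h : CM D D' G X σ) : ∀ x ∈ D, (cf σ G x).PosDef :=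
  fun x hx => cf_pos (h.pos' x hx)

/-- second derivatives of `X` -/
theorem CM.second (h : CM D D' G X σ) {x : E n} (hx : x ∈ D) (i k j : Fin n) :
    pd i (fun y => Jac X y k j) x = ∑ l, Jac X x k l * chr (cf σ G) l i j x -
      ∑ b, (∑ a, Jac X x a i * chr G k a b (X x)) * Jac X x b j := by
  have h1 := congrFun (congrFun
    (chr_pull h.hD h.hD' h.maps h.smX h.smG h.cpos h.pos h.pull hx i) k) j
  simp only [Matrix.mul_apply, Matrix.add_apply, mchr, pdM, Matrix.of_apply, Matrix.sum_apply,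
    Matrix.smul_apply, smul_eq_mul] at h1
  rw [h1]
  ring

/-- the unknowns of the differential system -/
def unk (X : E n → E n) (σ : E n → ℝ) : Fin n ⊕ (Fin n × Fin n) ⊕ Fin n → E n → ℝ :=
  Sum.elim (fun k x => X x k - x k)
    (Sum.elim (fun p x => Jac X x p.1 p.2 - dl p.1 p.2) fun k => pd k σ)

theorem CM.unk_sm (h : CM D D' G X σ) (i : Fin n ⊕ (Fin n × Fin n) ⊕ Fin n) :
    ContDiffOn ℝ ∞ (unk X σ i) D := by
  rcases i with k | p | k
  · exact (coord_smooth h.smX k).sub (dc_smooth_coord k)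
  · exact (Chr_sm_jac h.hD h.smX p.1 p.2).sub contDiffOn_const
  · exact h.hD.pd_smooth h.smσ k

/-- **Rigidity**: a conformal map with the jet of order two of the identity at `x₀` is the
identity near `x₀`. -/
theorem CM.local_id (hn : 3 ≤ n) (h : CM D D' G X σ) (hx : x₀ ∈ D) (h0 : X x₀ = x₀)
    (h1 : Jac X x₀ = 1) (h2 : ∀ k, pd k σ x₀ = 0) : ∀ᶠ x in 𝓝[Hs n] x₀, X x = x := by
  have hD := h.hD
  set W : E n → (Fin n ⊕ (Fin n × Fin n) ⊕ Fin n → ℝ) := fun x i => unk X σ i x with hW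
  have hWs : ContDiffOn ℝ ∞ W D := contDiffOn_pi.2 h.unk_sm
  set w : E n → ℝ := fun x => ‖W x‖ with hw
  have hu : ∀ i, unk X σ i =O[𝓝[Hs n] x₀] w := fun i =>
    IsBigO.of_bound 1 (Eventually.of_forall fun x => by
      rw [one_mul, hw, norm_norm]
      exact norm_le_pi_norm (W x) i)
  have hJs := Chr_sm_jac hD h.smX
  have hJ : ∀ a b, Cg x₀ w (fun x => Jac X x a b) fun _ => dl a b := fun a b =>
    hu (Sum.inr (Sum.inl (a, b)))
  have hs : ∀ k, Cg x₀ w (pd k σ) fun _ => 0 := fun k => Cg.zero_iff.2 (hu (Sum.inr (Sum.inr k)))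
  have hX : (fun x => X x - x) =O[𝓝[Hs n] x₀] w := by
    have a1 : (fun x => ∑ k, unk X σ (Sum.inl k) x • (ev k : E n)) =O[𝓝[Hs n] x₀] w := by
      refine IsBigO.fun_sum fun k _ => ?_
      have a2 := (hu (Sum.inl k)).smul (isBigO_const_const (ev k : E n) (one_ne_zero (α := ℝ)) _)
      simpa only [smul_eq_mul, mul_one] using a2
    exact a1.congr_left fun x => (en_expand (X x - x)).symm
  have hcomp : ∀ {a : E n → ℝ}, ContDiffOn ℝ ∞ a D' → Cg x₀ w (fun x => a (X x)) a :=
    fun ha => Cg.comp hD h.hD' hx (h.sub hx) h.smX h.maps h0 hX ha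
  have hΓ := Ric_chr_smooth h.hD' h.smG h.pos
  have hΓ₀ := Ric_chr_smooth hD h.smG' h.pos'
  have hΓ' := Ric_chr_smooth hD (cf_sm h.smσ h.smG') h.cpos
  have ht : ∀ i, Cg x₀ w (tv σ G i) fun _ => 0 := fun i =>
    Cg.sum_zero fun l => Cg.mul_zero hD hx (hD.smM_inv h.smG' h.pos' i l) (hs l)
  have hc : ∀ k i j, Cg x₀ w (chr (cf σ G) k i j) (chr G k i j) := by
    intro k i j
    have a1 := (((Cg.zero_iff.1 (hs j)).const_mul_left (dl k i)).add
      ((Cg.zero_iff.1 (hs i)).const_mul_left (dl k j))).sub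
      (Cg.zero_iff.1 (Cg.mul_zero hD hx (h.smG' i j) (ht k)))
    refine a1.congr' ?_ EventuallyEq.rfl
    filter_upwards [hD.mem_nhds hx] with x hx
    rw [chr_cf hD h.smσ h.smG' h.pos' hx, Tc]
    ring
  have hr : ∀ j k, Cg x₀ w (ric (cf σ G) j k) (ric G j k) := by
    intro j k
    have hR := ric_sm h.hD' h.smG h.pos
    have a1 : Cg x₀ w (fun x => ∑ p, ∑ q, Jac X x p j * Jac X x q k * ric G p q (X x))
        (fun x => ∑ p, ∑ q, dl p j * dl q k * ric G p q x) :=
      Cg.sum fun p => Cg.sum fun q =>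
        ((hJ p j).mul hD hx (hJ q k) contDiffOn_const (hJs q k)).mul hD hx (hcomp (hR p q))
          contDiffOn_const ((hR p q).comp h.smX h.maps)
    refine (Cg.of_eq hD hx fun x hx => ric_pull hD h.hD' h.maps h.smX (cf_sm h.smσ h.smG') h.smG
      h.cpos h.pos h.pull hx j k).trans (a1.trans (Cg.of_eq hD hx fun x _ => ?_))
    simp only [mul_assoc, ← Finset.mul_sum]
    rw [sum_dl (fun p => ∑ q, dl q k * ric G p q x) j, sum_dl (fun q => ric G j q x) k]
  have hO : ∀ j i, pd j (unk X σ i) =O[𝓝[Hs n] x₀] w := by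
    intro j i
    rcases i with k | ⟨k, l⟩ | k
    · refine (hJ k j).congr' ?_ EventuallyEq.rfl
      filter_upwards [hD.mem_nhds hx] with x hx
      have a1 := hD.pd_sub (coord_smooth h.smX k) (dc_smooth_coord k) hx j
      rw [dc_pd_coord (hD.subset hx)] at a1
      refine Eq.trans ?_ a1.symm
      simp only [Jac, Matrix.of_apply, dl, eq_comm]
    · have a1 : Cg x₀ w (fun x => ∑ m, Jac X x k m * chr (cf σ G) m j l x)
          (fun x => ∑ m, dl k m * chr G m j l x) :=
        Cg.sum fun m => (hJ k m).mul hD hx (hc m j l) contDiffOn_const (hΓ' m j l)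
      have a2 : Cg x₀ w (fun x => ∑ b, (∑ a, Jac X x a j * chr G k a b (X x)) * Jac X x b l)
          (fun x => ∑ b, (∑ a, dl a j * chr G k a b x) * dl b l) :=
        Cg.sum fun b => (Cg.sum fun a => (hJ a j).mul hD hx (hcomp (hΓ k a b)) contDiffOn_const
          ((hΓ k a b).comp h.smX h.maps)).mul hD hx (hJ b l)
          (ContDiffOn.sum fun a _ => contDiffOn_const.mul (hΓ₀ k a b)) (hJs b l)
      refine (a1.sub a2).congr' ?_ EventuallyEq.rfl
      filter_upwards [hD.mem_nhds hx] with x hx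
      have a3 := hD.pd_sub (hJs k l) (contDiffOn_const (c := dl k l)) hx j
      rw [pd_const, sub_zero, h.second hx] at a3
      refine Eq.trans ?_ a3.symm
      have a4 : ∀ b, ∑ a, dl a j * chr G k a b x = chr G k j b x := fun b =>
        sum_dl (fun a => chr G k a b x) j
      simp only [a4, mul_comm _ (dl _ l)]
      rw [sum_dl' (fun m => chr G m j l x) k, sum_dl (fun b => chr G k j b x) l]
      ring
    · exact Cg.zero_iff.1 (hess_small hn hD h.smσ h.smG' h.pos' hx hs hc hr j k)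
  have hW0 : W x₀ = 0 := by
    funext i
    rcases i with k | ⟨k, l⟩ | k
    · show X x₀ k - x₀ k = 0
      rw [h0, sub_self]
    · show Jac X x₀ k l - dl k l = 0
      rw [h1, Matrix.one_apply, dl, sub_self]
    · exact h2 k
  have h3 := vanish hD hx hWs hW0 fun j => by
    refine IsBigO.of_norm_right (isBigO_pi.2 fun i => (hO j i).congr' ?_ EventuallyEq.rfl)
    filter_upwards [hD.mem_nhds hx] with x hx
    exact hD.pd_clm (ContinuousLinearMap.proj (R := ℝ) (φ := fun _ => ℝ) i) hWs hx j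
  filter_upwards [h3] with x hx
  ext k
  exact sub_eq_zero.1 (congrFun hx (Sum.inl k))

/-- the inward derivative of a nonnegative function at a zero on the face -/
theorem pd_nonneg (hD : RelOpen D) {f : E n → ℝ} (hf : ContDiffOn ℝ ∞ f D)
    (h : ∀ x ∈ D, 0 ≤ f x) (hx : x₀ ∈ D) (h0 : f x₀ = 0) : 0 ≤ pd 0 f x₀ := by
  have h1 := hD.hasD hx hf (by simp)
  have hc : HasDerivAt (fun s : ℝ => x₀ + s • (ev 0 : E n)) (ev 0 : E n) 0 := by
    have := ((hasDerivAt_id (0 : ℝ)).smul_const (ev 0 : E n)).const_add x₀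
    simpa using this
  have hx00 : x₀ + (0 : ℝ) • (ev 0 : E n) = x₀ := by simp
  have hm : MapsTo (fun s : ℝ => x₀ + s • (ev 0 : E n)) (Ici 0) (Hs n) := by
    intro s hs
    have h2 : (0 : ℝ) ≤ x₀ 0 := hD.subset hx
    have h3 : (0 : ℝ) ≤ s := hs
    show (0 : ℝ) ≤ (x₀ + s • (ev 0 : E n) : E n) 0
    simp only [PiLp.add_apply, PiLp.smul_apply, PiLp.single_eq_same, smul_eq_mul, mul_one]
    linarith
  have h1' : HasFDerivWithinAt f (fderivWithin ℝ f (Hs n) x₀) (Hs n)
      (x₀ + (0 : ℝ) • (ev 0 : E n)) := by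
    rw [hx00]; exact h1
  have h2 : HasDerivWithinAt (fun s : ℝ => f (x₀ + s • (ev 0 : E n))) (pd 0 f x₀) (Ici 0) 0 :=
    h1'.comp_hasDerivWithinAt (0 : ℝ) hc.hasDerivWithinAt hm
  have h3 : ∀ᶠ s : ℝ in 𝓝[Ici 0] 0, x₀ + s • (ev 0 : E n) ∈ D := by
    have h4 : Tendsto (fun s : ℝ => x₀ + s • (ev 0 : E n)) (𝓝[Ici 0] 0) (𝓝[Hs n] x₀) := by
      have h5 := (hc.continuousAt.continuousWithinAt (s := Ici 0)).tendsto_nhdsWithin hm
      rwa [hx00] at h5
    exact h4 (hD.mem_nhds hx)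
  have h4 := hasDerivWithinAt_iff_tendsto_slope.1 h2
  rw [Ici_sdiff_left] at h4
  refine ge_of_tendsto h4 ?_
  filter_upwards [nhdsWithin_mono _ Ioi_subset_Ici_self h3, self_mem_nhdsWithin] with s hs hs0
  rw [slope_def_field, hx00, h0, sub_zero, sub_zero]
  exact div_nonneg (h _ hs) (le_of_lt hs0)

omit [NeZero n] in
/-- linear algebra at the face -/
theorem jac_one [NeZero n] {A J : Matrix (Fin n) (Fin n) ℝ} (hA : A.PosDef)
    (h : A = J.transpose * A * J) (h1 : ∀ k j, j ≠ 0 → J k j = dl k j) (h2 : 0 ≤ J 0 0) :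
    J = 1 := by
  have hd : J.det = J 0 0 := by
    have h3 : J = (1 : Matrix (Fin n) (Fin n) ℝ).updateCol 0 fun k => J k 0 := by
      ext k j
      by_cases hj : j = 0
      · rw [hj, Matrix.updateCol_self]
      · rw [Matrix.updateCol_ne hj, h1 k j hj, Matrix.one_apply, dl]
    rw [h3, ← Matrix.cramer_apply, Matrix.cramer_one]
    simp
  have h3 := congrArg Matrix.det h
  rw [Matrix.det_mul, Matrix.det_mul, Matrix.det_transpose, hd] at h3
  have h4 : J 0 0 = 1 := by
    have h5 : (J 0 0 - 1) * ((J 0 0 + 1) * A.det) = 0 := by linarith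
    have h6 : 0 < (J 0 0 + 1) * A.det := mul_pos (by linarith) hA.det_pos
    linarith [(mul_eq_zero.1 h5).resolve_right h6.ne']
  set u : Fin n → ℝ := fun k => J k 0 - dl k 0 with hu
  have hu0 : u 0 = 0 := by simp [hu, h4, dl]
  have h5 : ∀ j, j ≠ 0 → ∑ k, u k * A k j = 0 := by
    intro j hj
    have h6 := congrFun (congrFun h 0) j
    rw [Matrix.mul_apply] at h6
    simp only [h1 _ j hj, mul_comm _ (dl _ j)] at h6
    rw [sum_dl (fun b => (J.transpose * A) 0 b) j, Matrix.mul_apply] at h6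
    simp only [hu, sub_mul, Finset.sum_sub_distrib]
    rw [sum_dl (fun k => A k j) 0, h6]
    simp
  have h6 : u = 0 := by
    by_contra hne
    have h7 := hA.dotProduct_mulVec_pos hne
    have h8 : star u ⬝ᵥ A.mulVec u = ∑ j, (∑ k, u k * A k j) * u j := by
      simp only [star_trivial, dotProduct, Matrix.mulVec, Finset.mul_sum, Finset.sum_mul]
      rw [Finset.sum_comm]
      exact Finset.sum_congr rfl fun j _ => Finset.sum_congr rfl fun k _ => by ring
    rw [h8, Finset.sum_eq_zero fun j _ => ?_] at h7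
    · exact lt_irrefl _ h7
    · by_cases hj : j = 0
      · rw [hj, hu0, mul_zero]
      · rw [h5 j hj, zero_mul]
  ext k j
  by_cases hj : j = 0
  · have h7 := sub_eq_zero.1 (congrFun h6 k)
    rw [hj, h7, Matrix.one_apply, dl]
  · rw [h1 k j hj, Matrix.one_apply, dl]

/-- **The start at the face**: a conformal map which fixes the face has there the jet of order two
of the identity. -/
theorem CM.start (hn : 2 ≤ n) (h : CM D D' G X σ) (hfix : ∀ x ∈ D, x 0 = 0 → X x = x)
    (hx : x₀ ∈ D) (h0 : x₀ 0 = 0) : Jac X x₀ = 1 ∧ ∀ k, pd k σ x₀ = 0 := by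
  have hD := h.hD
  obtain ⟨i, hi⟩ : ∃ i : Fin n, i ≠ 0 := ⟨⟨1, by omega⟩, fun h => by simpa using congrArg Fin.val h⟩
  have h1 : ∀ x ∈ D, x 0 = 0 → ∀ k j, j ≠ 0 → Jac X x k j = dl k j := by
    intro x hx hx0 k j hj
    have a1 := dc_pd_tan hD (h.unk_sm (Sum.inl k))
      (fun y hy hy0 => show X y k - y k = 0 by rw [hfix y hy hy0, sub_self]) hj x hx hx0
    have a2 := hD.pd_sub (coord_smooth h.smX k) (dc_smooth_coord k) hx j
    rw [dc_pd_coord (hD.subset hx)] at a2
    have a3 := sub_eq_zero.1 (a2.symm.trans a1)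
    simp only [Jac, Matrix.of_apply, dl, a3, eq_comm]
  have h2 : ∀ x ∈ D, x 0 = 0 → σ x = 0 := by
    intro x hx hx0
    have a1 := congrFun (congrFun (h.pull x hx) i) i
    rw [hfix x hx hx0, Matrix.mul_apply] at a1
    simp only [Matrix.mul_apply, Matrix.transpose_apply, h1 x hx hx0 _ i hi,
      mul_comm _ (dl _ i)] at a1
    rw [sum_dl (fun b => ∑ a, dl a i * G x a b) i, sum_dl (fun a => G x a i) i] at a1
    have a2 : 0 < G x i i := (h.pos' x hx).diag_pos
    have a3 : Real.exp (2 * σ x) = 1 := by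
      have a4 : Real.exp (2 * σ x) * G x i i = 1 * G x i i := by rw [one_mul]; exact a1
      exact mul_right_cancel₀ a2.ne' a4
    have := Real.exp_eq_one_iff _ |>.1 a3
    linarith
  have h3 : ∀ x ∈ D, x 0 = 0 → Jac X x = 1 := by
    intro x hx hx0
    refine jac_one (h.pos' x hx) ?_ (h1 x hx hx0) ?_
    · have a1 := h.pull x hx
      rwa [hfix x hx hx0, cf, h2 x hx hx0, mul_zero, Real.exp_zero, one_smul] at a1
    · exact pd_nonneg hD (coord_smooth h.smX 0) (fun y hy => h.hD'.subset (h.maps hy)) hx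
        (by rw [hfix x hx hx0, hx0])
  refine ⟨h3 x₀ hx h0, ?_⟩
  have h4 : pd i σ x₀ = 0 := dc_pd_tan hD h.smσ h2 hi x₀ hx h0
  have h5 : ∀ k, tv σ G k x₀ = 0 := by
    intro k
    have a1 := dc_pd_tan hD (h.unk_sm (Sum.inr (Sum.inl (k, i))))
      (fun y hy hy0 => show Jac X y k i - dl k i = 0 by
        rw [h3 y hy hy0, Matrix.one_apply, dl, sub_self]) hi x₀ hx h0
    have a2 := hD.pd_sub (Chr_sm_jac hD h.smX k i) (contDiffOn_const (c := dl k i)) hx i
    rw [pd_const, sub_zero, h.second hx, h3 x₀ hx h0, hfix x₀ hx h0] at a2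
    have a3 := a2.symm.trans a1
    have a4 : ∀ a b, (1 : Matrix (Fin n) (Fin n) ℝ) a b = dl a b := fun a b => Matrix.one_apply
    have a5 : ∀ b, ∑ a, dl a i * chr G k a b x₀ = chr G k i b x₀ := fun b =>
      sum_dl (fun a => chr G k a b x₀) i
    simp only [a4, a5, mul_comm _ (dl _ i)] at a3
    rw [sum_dl' (fun m => chr (cf σ G) m i i x₀) k, sum_dl (fun b => chr G k i b x₀) i,
      chr_cf hD h.smσ h.smG' h.pos' hx, Tc, h4] at a3
    have a6 : 0 < G x₀ i i := (h.pos' x₀ hx).diag_pos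
    have a7 : G x₀ i i * tv σ G k x₀ = 0 := by linarith
    exact (mul_eq_zero.1 a7).resolve_left a6.ne'
  intro k
  rw [← sum_dl' (fun l => pd l σ x₀) k]
  have a1 : ∑ i, G x₀ k i * tv σ G i x₀ = 0 := by simp [h5]
  rw [← a1]
  unfold tv
  simp only [Finset.mul_sum]
  rw [Finset.sum_comm]
  refine Finset.sum_congr rfl fun l _ => ?_
  rw [← mul_inv_dl (h.pos' x₀ hx) k l, Finset.sum_mul]
  exact Finset.sum_congr rfl fun i _ => by ring

end Vale.Agent.N088
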