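import Vale.Agent.P088.Bdl.B6

/-!
# P088: uniqueness for total differential inequalities on the half space
-/

set_option linter.all false

open Set Filter Topology Asymptotics
open scoped ContDiff

noncomputable section

namespace Vale.Agent.N088

open Vale.Agent.P088.EYM

variable {n : ℕ} [NeZero n] {D : Set (E n)} {x₀ : E n}

/-- A smooth map which vanishes at `x₀` and whose first derivatives are bounded by the map itself
vanishes near `x₀`. -/
theorem vanish {V : Type*} [NormedAddCommGroup V] [NormedSpace ℝ V] (hD : RelOpen D)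
    (hx : x₀ ∈ D) {W : E n → V} (hW : ContDiffOn ℝ ∞ W D) (h0 : W x₀ = 0)
    (hO : ∀ j, pd j W =O[𝓝[Hs n] x₀] W) : ∀ᶠ x in 𝓝[Hs n] x₀, W x = 0 := by
  have h1 : (fun x => fderivWithin ℝ W (Hs n) x) =O[𝓝[Hs n] x₀] W := by
    have h2 : (fun x => ∑ j, ‖pd j W x‖) =O[𝓝[Hs n] x₀] W :=
      IsBigO.fun_sum fun j _ => (hO j).norm_left
    refine IsBigO.trans (IsBigO.of_bound 1 (Eventually.of_forall fun x => ?_)) h2
    rw [one_mul, Real.norm_of_nonneg (Finset.sum_nonneg fun j _ => norm_nonneg _)]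
    refine ContinuousLinearMap.opNorm_le_bound _ (Finset.sum_nonneg fun j _ => norm_nonneg _)
      fun v => ?_
    rw [fderivWithin_eq_sum, Finset.sum_mul]
    refine (norm_sum_le _ _).trans (Finset.sum_le_sum fun j _ => ?_)
    rw [norm_smul, mul_comm]
    exact mul_le_mul_of_nonneg_left (PiLp.norm_apply_le v j) (norm_nonneg _)
  obtain ⟨C, hC, hb⟩ := h1.exists_pos
  have h3 := (hb.bound.and (hD.mem_nhds hx))
  obtain ⟨ε, hε, h4⟩ := Metric.mem_nhdsWithin_iff.1 h3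
  set r : ℝ := min (ε / 2) (1 / (2 * C)) with hr
  have hr0 : 0 < r := lt_min (by positivity) (by positivity)
  set K : Set (E n) := Metric.closedBall x₀ r ∩ Hs n with hK
  have hKs : ∀ y ∈ K, ‖fderivWithin ℝ W (Hs n) y‖ ≤ C * ‖W y‖ ∧ y ∈ D := fun y hy =>
    h4 ⟨Metric.closedBall_subset_ball (lt_of_le_of_lt (min_le_left _ _) (by linarith)) hy.1, hy.2⟩
  have hKc : IsCompact K := (isCompact_closedBall x₀ r).inter_right isClosed_Hs
  have hx₀ : x₀ ∈ K := ⟨Metric.mem_closedBall_self hr0.le, hD.subset hx⟩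
  have hcont : ContinuousOn (fun y => ‖W y‖) K :=
    (hW.continuousOn.mono fun y hy => (hKs y hy).2).norm
  obtain ⟨x₁, hx₁, hmax⟩ := hKc.exists_isMaxOn ⟨x₀, hx₀⟩ hcont
  have h5 : ‖W x₁ - W x₀‖ ≤ (C * ‖W x₁‖) * ‖x₁ - x₀‖ :=
    Convex.norm_image_sub_le_of_norm_hasFDerivWithin_le
      (f' := fun y => fderivWithin ℝ W (Hs n) y)
      (fun y hy => (hD.hasD (hKs y hy).2 hW (by simp)).mono inter_subset_right)
      (fun y hy => (hKs y hy).1.trans (mul_le_mul_of_nonneg_left (hmax hy) hC.le))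
      ((convex_closedBall x₀ r).inter convex_Hs) hx₀ hx₁
  have h6 : ‖x₁ - x₀‖ ≤ 1 / (2 * C) := by
    rw [← dist_eq_norm]
    exact (Metric.mem_closedBall.1 hx₁.1).trans (min_le_right _ _)
  have h7 : ‖W x₁‖ ≤ 0 := by
    rw [h0, sub_zero] at h5
    have h8 : (C * ‖W x₁‖) * ‖x₁ - x₀‖ ≤ (C * ‖W x₁‖) * (1 / (2 * C)) :=
      mul_le_mul_of_nonneg_left h6 (by positivity)
    have h9 : (C * ‖W x₁‖) * (1 / (2 * C)) = ‖W x₁‖ / 2 := by field_simp
    linarith
  have h10 : K ∈ 𝓝[Hs n] x₀ :=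
    inter_mem (mem_nhdsWithin_of_mem_nhds (Metric.closedBall_mem_nhds x₀ hr0)) self_mem_nhdsWithin
  filter_upwards [h10] with y hy
  exact norm_le_zero_iff.1 ((hmax hy).trans h7)

/-- `a - b = O(w)` near `x₀`. -/
def Cg (x₀ : E n) (w a b : E n → ℝ) : Prop := (fun x => a x - b x) =O[𝓝[Hs n] x₀] w

variable {w a b a' b' c : E n → ℝ}

theorem bdd (hD : RelOpen D) (hx : x₀ ∈ D) (ha : ContDiffOn ℝ ∞ a D) :
    a =O[𝓝[Hs n] x₀] fun _ => (1 : ℝ) :=
  Filter.Tendsto.isBigO_one ℝ (hD.contDiffWithinAt hx ha).continuousWithinAt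

theorem Cg.refl (a : E n → ℝ) : Cg x₀ w a a := by
  unfold Cg
  simp only [sub_self]
  exact isBigO_zero _ _

theorem Cg.symm (h : Cg x₀ w a b) : Cg x₀ w b a := IsBigO.symm h

theorem Cg.trans (h : Cg x₀ w a b) (h' : Cg x₀ w b c) : Cg x₀ w a c := IsBigO.triangle h h'

theorem Cg.of_eq (hD : RelOpen D) (hx : x₀ ∈ D) (h : ∀ x ∈ D, a x = b x) : Cg x₀ w a b := by
  refine (isBigO_zero w _).congr' ?_ EventuallyEq.rfl
  filter_upwards [hD.mem_nhds hx] with x hx
  rw [h x hx, sub_self]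

theorem Cg.add (h : Cg x₀ w a a') (h' : Cg x₀ w b b') :
    Cg x₀ w (fun x => a x + b x) (fun x => a' x + b' x) :=
  (IsBigO.add h h').congr_left fun x => by ring

theorem Cg.sub (h : Cg x₀ w a a') (h' : Cg x₀ w b b') :
    Cg x₀ w (fun x => a x - b x) (fun x => a' x - b' x) :=
  (IsBigO.sub h h').congr_left fun x => by ring

theorem Cg.sum {ι : Type*} [Fintype ι] {f g : ι → E n → ℝ} (h : ∀ i, Cg x₀ w (f i) (g i)) :
    Cg x₀ w (fun x => ∑ i, f i x) (fun x => ∑ i, g i x) :=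
  (IsBigO.fun_sum (s := Finset.univ) fun i _ => h i).congr_left fun x => by
    rw [Finset.sum_sub_distrib]

theorem Cg.mul (hD : RelOpen D) (hx : x₀ ∈ D) (h : Cg x₀ w a a') (h' : Cg x₀ w b b')
    (ha' : ContDiffOn ℝ ∞ a' D) (hb : ContDiffOn ℝ ∞ b D) :
    Cg x₀ w (fun x => a x * b x) (fun x => a' x * b' x) := by
  have h1 := IsBigO.mul h (bdd hD hx hb)
  have h2 := IsBigO.mul (bdd hD hx ha') h'
  simp only [mul_one, one_mul] at h1 h2
  exact (h1.add h2).congr_left fun x => by ring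

theorem Cg.const_mul (r : ℝ) (h : Cg x₀ w a b) :
    Cg x₀ w (fun x => r * a x) (fun x => r * b x) :=
  (IsBigO.const_mul_left h r).congr_left fun x => by ring

theorem Cg.zero_iff : Cg x₀ w a (fun _ => 0) ↔ a =O[𝓝[Hs n] x₀] w := by
  unfold Cg
  simp only [sub_zero]

/-- a bounded function times a small function is small -/
theorem Cg.mul_zero (hD : RelOpen D) (hx : x₀ ∈ D) (ha : ContDiffOn ℝ ∞ a D)
    (h : Cg x₀ w b fun _ => 0) : Cg x₀ w (fun x => a x * b x) fun _ => 0 := by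
  have h2 := IsBigO.mul (bdd hD hx ha) (Cg.zero_iff.1 h)
  simp only [one_mul] at h2
  exact Cg.zero_iff.2 h2

theorem Cg.sum_zero {ι : Type*} [Fintype ι] {f : ι → E n → ℝ}
    (h : ∀ i, Cg x₀ w (f i) fun _ => 0) : Cg x₀ w (fun x => ∑ i, f i x) fun _ => 0 :=
  Cg.zero_iff.2 (IsBigO.fun_sum fun i _ => Cg.zero_iff.1 (h i))

/-- smooth functions are Lipschitz -/
theorem Cg.comp {D' : Set (E n)} (hD : RelOpen D) (hD' : RelOpen D') (hx : x₀ ∈ D) (hx' : x₀ ∈ D')
    {X : E n → E n} (hX : ContDiffOn ℝ ∞ X D) (hm : MapsTo X D D') (h0 : X x₀ = x₀)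
    (hw : (fun x => X x - x) =O[𝓝[Hs n] x₀] w) (ha : ContDiffOn ℝ ∞ a D') :
    Cg x₀ w (fun x => a (X x)) a := by
  obtain ⟨K, t, ht, hL⟩ := ((hD'.contDiffWithinAt hx' ha).of_le
    (m := 1) (by exact_mod_cast le_top)).exists_lipschitzOnWith convex_Hs
  have h1 : Tendsto X (𝓝[Hs n] x₀) (𝓝[Hs n] x₀) := by
    refine tendsto_nhdsWithin_iff.2 ⟨?_, ?_⟩
    · have := (hD.contDiffWithinAt hx hX).continuousWithinAt.tendsto
      rwa [h0] at this
    · filter_upwards [hD.mem_nhds hx] with x hx using hD'.subset (hm hx)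
  refine IsBigO.trans (IsBigO.of_bound K ?_) hw
  filter_upwards [ht, h1 ht] with x h2 h3
  have := hL.dist_le_mul _ h3 _ h2
  rwa [dist_eq_norm, dist_eq_norm] at this

end Vale.Agent.N088
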