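import Vale.Agent.N088.Bridge

/-!
# P088: two manifolds which share a boundary patch
-/

set_option linter.all false

open Bundle Manifold MeasureTheory Set Filter
open scoped ContDiff Matrix Topology

noncomputable section

namespace Vale.Agent.N088

open Vale.Agent.P088 Vale.Agent.P088.R2.H31
open Vale.Agent.P088.EYM (One SmS)
open Vale.Agent.P088I65 (bs met)

universe u

variable {n N : ℕ} [NeZero n] {M M' : Type u} [TopologicalSpace M]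
  [ChartedSpace (EuclideanHalfSpace n) M] [IsManifold (𝓡∂ n) ∞ M] [TopologicalSpace M']
  [ChartedSpace (EuclideanHalfSpace n) M'] [IsManifold (𝓡∂ n) ∞ M']

omit [IsManifold (𝓡∂ n) ∞ M] in
theorem Patch.sub {Γ : Set M} (h : Patch (𝓡∂ n) Γ) : Γ ⊆ (𝓡∂ n).boundary M := by
  obtain ⟨-, O, -, rfl⟩ := h
  exact inter_subset_right

omit [IsManifold (𝓡∂ n) ∞ M] in
theorem Patch.bd {Γ : Set M} (h : Patch (𝓡∂ n) Γ) : ((𝓡∂ n).boundary M).Nonempty :=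
  h.1.mono h.sub

variable [T2Space M] [CompactSpace M] [T2Space M'] [CompactSpace M']

theorem glOk {Γ : Set M} {Γ' : Set M'} (hΓ : Patch (𝓡∂ n) Γ) (hΓ' : Patch (𝓡∂ n) Γ')
    {ψ : M' → M} (hb : BijOn ψ Γ' Γ)
    (hd : ∀ f : M → Fib N, Data (𝓡∂ n) (hp n) Γ (Γ.indicator f) ↔
      Data (𝓡∂ n) (hp n) Γ' (Γ'.indicator (f ∘ ψ))) :
    ∃ χ : M → M', TM.Gl.Ok n N (⟨Γ, Γ', ψ, χ⟩ : TM.Gl M M') := by
  haveI : Nonempty M' := ⟨hΓ'.1.some⟩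
  set χ : M → M' := Function.invFunOn ψ Γ' with hχ
  have hmaps' : MapsTo χ Γ Γ' := hb.surjOn.mapsTo_invFunOn
  have hinv : ∀ x ∈ Γ', χ (ψ x) = x := fun x hx => hb.injOn.leftInvOn_invFunOn hx
  have hinv' : ∀ x ∈ Γ, ψ (χ x) = x := fun x hx => hb.surjOn.rightInvOn_invFunOn hx
  refine ⟨χ, hΓ.2, hΓ'.2, hΓ.1, hΓ'.1, hb.mapsTo, hmaps', hinv, hinv', ?_, ?_⟩
  · intro f hf
    obtain ⟨F, hF, h⟩ := bd_of_data ((hd f).1 (data_congr (ind_eq hf.supp) (data_of_bd hf)))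
    refine ⟨F, hF, fun x hx => ?_⟩
    rw [h x (hΓ'.sub hx), indicator_of_mem hx]
    rfl
  · intro f hf
    have h1 : Γ'.indicator ((f ∘ χ) ∘ ψ) = Γ'.indicator f :=
      indicator_congr fun x hx => congrArg f (hinv x hx)
    have h2 := data_congr (ind_eq hf.supp) (data_of_bd hf)
    rw [← h1] at h2
    obtain ⟨F, hF, h⟩ := bd_of_data ((hd _).2 h2)
    refine ⟨F, hF, fun x hx => ?_⟩
    rw [h x (hΓ.sub hx), indicator_of_mem hx]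
    rfl

variable [MeasurableSpace M] [BorelSpace M] [MeasurableSpace M'] [BorelSpace M']

theorem geo_of {Γ : Set M} {Γ' : Set M'} {ψ : M' → M} (χ : M → M') {P : Pr n N M}
    {P' : Pr n N M'} {Φ : Diffeomorph (𝓡∂ n) (𝓡∂ n) M' M ∞}
    {U : M' → unitary (Fib N →L[ℂ] Fib N)} (h : Rel Γ' ψ P P' Φ U) :
    TM.Geo (one P) (one P') ⟨Γ, Γ', ψ, χ⟩ Φ fun x => (U x).1 :=
  ⟨⟨h.1, fun x => (U x).2⟩, fun x hx => ⟨(h.2.1 x hx).1, congrArg Subtype.val (h.2.1 x hx).2⟩,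
    h.2.2.1, h.2.2.2⟩

variable [ConnectedSpace M] [ConnectedSpace M']

/-- matched data and their solutions -/
theorem md_sol {Γ : Set M} {Γ' : Set M'} (hΓ : Patch (𝓡∂ n) Γ) (hΓ' : Patch (𝓡∂ n) Γ')
    {ψ : M' → M} {χ : M → M'} (hG : TM.Gl.Ok n N (⟨Γ, Γ', ψ, χ⟩ : TM.Gl M M'))
    {f F : M → Fib N} {F' : M' → Fib N} (h : TM.MD n (⟨Γ, Γ', ψ, χ⟩ : TM.Gl M M') F F')
    (hF : ∀ x ∈ (𝓡∂ n).boundary M, F x = f x) :
    ∀ x ∈ (𝓡∂ n).boundary M', F' x = Γ'.indicator (f ∘ ψ) x := by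
  intro x hx
  rw [ind_eq h.h₂.supp x hx]
  refine congrFun (indicator_congr fun y hy => ?_) x
  exact (h.eq y hy).trans (hF _ (hΓ.sub (hG.maps hy)))

theorem exists_md {Γ : Set M} {Γ' : Set M'}
    {ψ : M' → M} {χ : M → M'} (hG : TM.Gl.Ok n N (⟨Γ, Γ', ψ, χ⟩ : TM.Gl M M'))
    {f : M → Fib N} (hf : Data (𝓡∂ n) (hp n) Γ f) :
    ∃ F F', TM.MD n (⟨Γ, Γ', ψ, χ⟩ : TM.Gl M M') F F' ∧
      ∀ x ∈ (𝓡∂ n).boundary M, F x = f x := by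
  obtain ⟨F, hF, h⟩ := bd_of_data hf
  obtain ⟨F', hF', h'⟩ := hG.ext F hF
  exact ⟨F, F', ⟨hF, hF', h'⟩, h⟩

theorem sameD_iff (hn : 2 ≤ n) {Γ : Set M} {Γ' : Set M'} (hΓ : Patch (𝓡∂ n) Γ)
    (hΓ' : Patch (𝓡∂ n) Γ') {ψ : M' → M} {χ : M → M'}
    (hG : TM.Gl.Ok n N (⟨Γ, Γ', ψ, χ⟩ : TM.Gl M M')) (P : Pr n N M) (P' : Pr n N M') :
    (∀ f h : M → Fib N, Data (𝓡∂ n) (hp n) Γ f → Data (𝓡∂ n) (hp n) Γ h →
      Lam (bs n) P f h = Lam (bs n) P' (Γ'.indicator (f ∘ ψ)) (Γ'.indicator (h ∘ ψ))) ↔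
      TM.SameD (one P) (one P') ⟨Γ, Γ', ψ, χ⟩ := by
  constructor
  · intro h f₁ h₁ f₂ h₂ hf hh
    obtain ⟨u₁, a1⟩ := hasSol hn hΓ.bd (one P) Γ f₁ hf.h₁
    obtain ⟨v₁, a2⟩ := hasSol hn hΓ.bd (one P) Γ h₁ hh.h₁
    obtain ⟨u₂, a3⟩ := hasSol hn hΓ'.bd (one P') Γ' f₂ hf.h₂
    obtain ⟨v₂, a4⟩ := hasSol hn hΓ'.bd (one P') Γ' h₂ hh.h₂
    refine ⟨u₁, v₁, u₂, v₂, a1, a2, a3, a4, ?_⟩
    have e := h f₁ h₁ (data_of_bd hf.h₁) (data_of_bd hh.h₁)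
    unfold Lam at e
    rw [energy_eq, energy_eq, sol_eq hΓ.bd P a1 fun _ _ => rfl, sol_eq hΓ.bd P a2 fun _ _ => rfl,
      sol_eq hΓ'.bd P' a3 (md_sol hΓ hΓ' hG hf fun _ _ => rfl),
      sol_eq hΓ'.bd P' a4 (md_sol hΓ hΓ' hG hh fun _ _ => rfl)] at e
    exact e
  · intro hS f h hf hh
    obtain ⟨F, F', m1, b1⟩ := exists_md hG hf
    obtain ⟨K, K', m2, b2⟩ := exists_md hG hh
    obtain ⟨u₁, v₁, u₂, v₂, a1, a2, a3, a4, e⟩ := hS F K F' K' m1 m2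
    unfold Lam
    rw [energy_eq, energy_eq, sol_eq hΓ.bd P a1 b1, sol_eq hΓ.bd P a2 b2,
      sol_eq hΓ'.bd P' a3 (md_sol hΓ hΓ' hG m1 b1), sol_eq hΓ'.bd P' a4 (md_sol hΓ hΓ' hG m2 b2)]
    exact e

/-- the main theorem of the development, in the invariant layer -/
theorem ge2 (hn : 3 ≤ n) (hN : 1 ≤ N) (P : One n N M) (Q : One n N M') (G : TM.Gl M M')
    (hG : G.Ok n N) (hS : TM.SameD P Q G) : TM.GE2 P Q G := by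
  have hC := S4.core4_esth Vale.Agent.P088.R2.H558.G.rowESTh
  obtain ⟨h1, h2, h3, h4⟩ := S4.loc4 (R2.H710.rowLX4 hC) (R2.H850.rowSTART4 hC) hn hN P Q G hG hS
  exact R2.H710.rowGLOB n N M M' P Q G hn hN hG hS h1 h2 h3 h4

theorem two (hn : 3 ≤ n) (hN : 1 ≤ N) {Γ : Set M} {Γ' : Set M'} (hΓ : Patch (𝓡∂ n) Γ)
    (hΓ' : Patch (𝓡∂ n) Γ') :
    TwoManifolds (𝓡∂ n) (Fib N) (Fib N →L[ℂ] Fib N) (bs n) (hp n) Γ Γ' := by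
  intro ψ hb hd P P'
  have hn2 : 2 ≤ n := by omega
  obtain ⟨χ, hG⟩ := glOk hΓ hΓ' hb hd
  have hsol := hasSol hn2 hΓ.bd (one P) Γ
  refine ⟨?_, fun Φ U h => ⟨fun Φ₁ U₁ h₁ => ?_, fun f hf x => ?_⟩⟩
  · rw [sameD_iff hn2 hΓ hΓ' hG]
    constructor
    · intro hS
      obtain ⟨Φ, U, hU, hfix, hg, hA, -⟩ := ge2 hn hN _ _ _ hG hS
      exact ⟨Φ, fun x => ⟨U x, hU.unitary x⟩, hU.smooth,
        fun x hx => ⟨(hfix x hx).1, Subtype.ext (hfix x hx).2⟩, hg, hA⟩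
    · rintro ⟨Φ, U, h⟩
      exact (geo_of χ h).same hG hsol
  · obtain ⟨e1, e2⟩ := TM.Geo.uniq hn2 hN hG hsol (geo_of χ h₁) (geo_of χ h)
    exact ⟨e1, funext fun x => Subtype.ext (congrFun e2 x)⟩
  · obtain ⟨F, F', m, b⟩ := exists_md hG hf
    obtain ⟨u, a⟩ := hsol F m.h₁
    obtain ⟨u', a'⟩ := hasSol hn2 hΓ'.bd (one P') Γ' F' m.h₂
    rw [sol_eq hΓ.bd P a b, sol_eq hΓ'.bd P' a' (md_sol hΓ hΓ' hG m b)]
    exact (geo_of χ h).sol hG (u := (u, u')) ⟨F, F', m, a, a'⟩ x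

theorem question (hn : 3 ≤ n) (hN : 1 ≤ N) {Γ : Set M} (hΓ : Patch (𝓡∂ n) Γ) :
    Question (𝓡∂ n) (Fib N) (bs n) (hp n) Γ := by
  intro P Q h
  refine (two hn hN hΓ hΓ id (bijOn_id Γ) (fun f => Iff.rfl) P Q).1.1 fun f k hf hk => ?_
  rw [h f k hf hk]
  unfold Lam
  rw [sol_congr Q (ind_eq hf.2), sol_congr Q (ind_eq hk.2)]
  rfl

end Vale.Agent.N088
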