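import Vale.Agent.N088.Local
import Vale.Agent.N088.Two

/-!
# P088: a conformal map which fixes a boundary patch is the identity; the main theorem
-/

set_option linter.all false

open Bundle Manifold MeasureTheory Set Filter
open scoped ContDiff Matrix Topology

noncomputable section

namespace Vale.Agent.N088

open Vale.Agent.P088 Vale.Agent.P088.EYM
open Vale.Agent.P088I65 (bs met)

universe u

variable {n N : ℕ} [NeZero n] {M : Type u} [TopologicalSpace M]
  [ChartedSpace (EuclideanHalfSpace n) M] [IsManifold (𝓡∂ n) ∞ M]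

variable (n) in
/-- the coordinates of the points of `U` in the chart at `p` -/
def dom (p : M) (U : Set M) : Set (E n) := tg n p ∩ (xc n p).symm ⁻¹' U

theorem dom_rel (p : M) {U : Set M} (hU : IsOpen U) : RelOpen (dom n p U) := by
  obtain ⟨O, hO, h⟩ := continuousOn_iff'.1 (continuousOn_extChartAt_symm (I := 𝓡∂ n) p) U hU
  have h1 : dom n p U = O ∩ tg n p := by
    rw [dom, inter_comm]
    exact h
  rw [h1]
  exact (cLoc_relOpen p).univ_inter hO

theorem mem_dom {p x : M} {U : Set M} (hx : x ∈ (xc n p).source) (hU : x ∈ U) :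
    xc n p x ∈ dom n p U :=
  ⟨(xc n p).map_source hx, by rw [mem_preimage, (xc n p).left_inv hx]; exact hU⟩

variable [MeasurableSpace M] {P Q : One n N M} {Φ : M → M} {c : M → ℝ}

variable (n) in
/-- the map in the chart at `p` -/
def lX (Φ : M → M) (p : M) (y : E n) : E n := xc n p (Φ ((xc n p).symm y))

/-- the logarithm of the conformal factor in the chart at `p` -/
def lσ (P Q : One n N M) (p : M) (y : E n) : ℝ :=
  2⁻¹ * Real.log ((Q.loc p).g y 0 0 / (P.loc p).g y 0 0)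

/-- the conformal map in a chart -/
theorem cm_chart (hΦ : ContMDiff (𝓡∂ n) (𝓡∂ n) ∞ Φ)
    (hmet : ∀ x v w, Q.g.inner x v w =
      P.g.inner (Φ x) (mfderiv (𝓡∂ n) (𝓡∂ n) Φ x v) (mfderiv (𝓡∂ n) (𝓡∂ n) Φ x w))
    (p : M) {U : Set M} (hU : IsOpen U) (hUΦ : ∀ x ∈ U, Φ x ∈ (xc n p).source)
    (hc : ∀ x ∈ U, ∀ v w, Q.g.inner x v w = c x * P.g.inner x v w) :
    CM (dom n p U) (tg n p) (P.loc p).g (lX n Φ p) (lσ P Q p) := by
  have hP := cLoc_ok P p
  have hQ := cLoc_ok Q p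
  have h1 : ∀ y ∈ tg n p, 0 < (Q.loc p).g y 0 0 / (P.loc p).g y 0 0 := fun y hy =>
    div_pos (hQ.g_pos y hy).diag_pos (hP.g_pos y hy).diag_pos
  refine ⟨dom_rel p hU, cLoc_relOpen p, inter_subset_left, hP.g_smooth, hP.g_pos, ?_,
    fun y hy => (xc n p).map_source (hUΦ _ hy.2), ?_, fun y hy => ?_⟩
  · rw [← contMDiffOn_iff_contDiffOn]
    have ha : ContMDiffOn 𝓘(ℝ, E n) (𝓡∂ n) ∞ (xc n p).symm (dom n p U) :=
      (contMDiffOn_extChartAt_symm p).mono inter_subset_left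
    have hcc : ContMDiffOn (𝓡∂ n) 𝓘(ℝ, E n) ∞ (xc n p)
        (chartAt (EuclideanHalfSpace n) p).source := contMDiffOn_extChartAt
    refine hcc.comp (hΦ.comp_contMDiffOn ha) fun y hy => ?_
    have := hUΦ _ hy.2
    rwa [extChartAt_source] at this
  · refine (contDiffOn_const.mul (((hQ.g_smooth 0 0).div (hP.g_smooth 0 0)
      fun y hy => (hP.g_pos y hy).diag_pos.ne').log fun y hy => (h1 y hy).ne')).mono
      inter_subset_left
  · have hs : (xc n p).symm y ∈ (xc n p).source := (xc n p).map_target hy.1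
    have h2 : ∀ i j, (Q.loc p).g y i j = c ((xc n p).symm y) * (P.loc p).g y i j := fun i j =>
      hc _ hy.2 _ _
    have h3 : cf (lσ P Q p) (P.loc p).g y = (Q.loc p).g y := by
      ext i j
      rw [cf, lσ, ← mul_assoc, mul_inv_cancel₀ two_ne_zero, one_mul, Real.exp_log (h1 y hy.1),
        Matrix.smul_apply, smul_eq_mul, h2 i j, h2 0 0, mul_div_assoc,
        div_self (hP.g_pos y hy.1).diag_pos.ne', mul_one]
    rw [h3]
    obtain ⟨hder, -⟩ := TM.cChart n M M univ Φ isOpen_univ hΦ.contMDiffOn p p ((xc n p).symm y)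
      (mem_univ _) hs (hUΦ _ hy.2)
    rw [(xc n p).right_inv hy.1] at hder
    have hg : (P.loc p).g (lX n Φ p y) = gram P.g p (Φ ((xc n p).symm y)) := by
      change gram P.g p ((xc n p).symm (xc n p (Φ ((xc n p).symm y)))) = _
      rw [(xc n p).left_inv (hUΦ _ hy.2)]
    rw [hg]
    ext i j
    have hm := hmet _ (coordVec (𝓡∂ n) p ((xc n p).symm y) i)
      (coordVec (𝓡∂ n) p ((xc n p).symm y) j)
    rw [hder i, hder j, cUnm_jac_expand] at hm
    change Q.g.inner ((xc n p).symm y) (coordVec (𝓡∂ n) p ((xc n p).symm y) i)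
      (coordVec (𝓡∂ n) p ((xc n p).symm y) j) = _
    rw [hm, Matrix.mul_apply]
    refine Finset.sum_congr rfl fun l _ => ?_
    rw [Matrix.mul_apply]
    rfl

omit [MeasurableSpace M] in
theorem near_id (hΦ : Continuous Φ) {p : M} (hp : Φ p = p)
    (h : ∀ᶠ y in 𝓝[Hs n] (xc n p p), lX n Φ p y = y) : ∀ᶠ x in 𝓝 p, Φ x = x := by
  rw [← cChart_range, ← map_extChartAt_nhds, eventually_map] at h
  have h1 : (xc n p).source ∈ 𝓝 p := extChartAt_source_mem_nhds p
  have h2 : Φ ⁻¹' (xc n p).source ∈ 𝓝 p :=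
    hΦ.continuousAt.preimage_mem_nhds (by rw [hp]; exact h1)
  filter_upwards [h, h1, h2] with x hx a1 a2
  unfold lX at hx
  rw [(xc n p).left_inv a1] at hx
  exact (xc n p).injOn a2 a1 hx

/-- **Conformal rigidity.** -/
theorem rigid [T2Space M] (hn : 3 ≤ n) (hΦ : ContMDiff (𝓡∂ n) (𝓡∂ n) ∞ Φ)
    (hmet : ∀ x v w, Q.g.inner x v w =
      P.g.inner (Φ x) (mfderiv (𝓡∂ n) (𝓡∂ n) Φ x v) (mfderiv (𝓡∂ n) (𝓡∂ n) Φ x w))
    {Γ : Set M} (hΓ : Patch (𝓡∂ n) Γ) (hfix : ∀ x ∈ Γ, Φ x = x) {W : Set M} (hW : IsOpen W)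
    (hWc : IsPreconnected W) (hne : (W ∩ Γ).Nonempty)
    (hc : ∀ x ∈ W, ∀ v w, Q.g.inner x v w = c x * P.g.inner x v w) :
    ∀ x ∈ W, c x = 1 ∧ Φ x = x := by
  set Z : Set M := {x | ∀ᶠ y in 𝓝 x, Φ y = y} with hZ
  have hZo : IsOpen Z := isOpen_setOf_eventually_nhds
  have hZ' : ∀ x ∈ Z, Φ x = x := fun x hx => Eventually.self_of_nhds (p := fun y => Φ y = y) hx
  have hsrc : ∀ p : M, IsOpen (Φ ⁻¹' (xc n p).source) := fun p =>
    (isOpen_extChartAt_source p).preimage hΦ.continuous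
  have hWZ : W ⊆ Z := by
    refine hWc.subset_of_closure_inter_subset hZo ?_ ?_
    · obtain ⟨p, hpW, hpΓ⟩ := hne
      obtain ⟨-, O, hO, rfl⟩ := hΓ
      have hp : Φ p = p := hfix p hpΓ
      have h := cm_chart (U := (W ∩ O) ∩ Φ ⁻¹' (xc n p).source) hΦ hmet p
        ((hW.inter hO).inter (hsrc p)) (fun x hx => hx.2) fun x hx => hc x hx.1.1
      have hx : xc n p p ∈ dom n p ((W ∩ O) ∩ Φ ⁻¹' (xc n p).source) :=
        mem_dom (mem_extChartAt_source p) ⟨⟨hpW, hpΓ.1⟩, by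
          rw [mem_preimage, hp]; exact mem_extChartAt_source p⟩
      have hf : ∀ y ∈ dom n p ((W ∩ O) ∩ Φ ⁻¹' (xc n p).source), y 0 = 0 → lX n Φ p y = y := by
        intro y hy hy0
        have h1 : (xc n p).symm y ∈ (𝓡∂ n).boundary M :=
          (cLoc_bd p _ ((xc n p).map_target hy.1)).2 (by rw [(xc n p).right_inv hy.1]; exact hy0)
        unfold lX
        rw [hfix _ ⟨hy.2.1.2, h1⟩, (xc n p).right_inv hy.1]
      have h0 : xc n p p 0 = 0 := (cLoc_bd p p (mem_extChartAt_source p)).1 hpΓ.2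
      obtain ⟨h1, h2⟩ := h.start (by omega) hf hx h0
      exact ⟨p, hpW, near_id hΦ.continuous hp (h.local_id hn hx (hf _ hx h0) h1 h2)⟩
    · rintro p ⟨hpZ, hpW⟩
      have hp : Φ p = p := closure_minimal (t := {x | Φ x = x}) hZ'
        (isClosed_eq hΦ.continuous continuous_id) hpZ
      set U : Set M := W ∩ Φ ⁻¹' (xc n p).source with hU
      have hUo : IsOpen U := hW.inter (hsrc p)
      have hpU : p ∈ U := ⟨hpW, by rw [mem_preimage, hp]; exact mem_extChartAt_source p⟩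
      have h := cm_chart (U := U) hΦ hmet p hUo (fun x hx => hx.2) fun x hx => hc x hx.1
      have hx : xc n p p ∈ dom n p U := mem_dom (mem_extChartAt_source p) hpU
      have hS : RelOpen (dom n p (U ∩ Z)) := dom_rel p (hUo.inter hZo)
      have hSD : dom n p (U ∩ Z) ⊆ dom n p U := fun y hy => ⟨hy.1, hy.2.1⟩
      have hcl : xc n p p ∈ closure (dom n p (U ∩ Z)) := by
        have h1 : p ∈ closure ((U ∩ (xc n p).source) ∩ Z) :=
          (hUo.inter (isOpen_extChartAt_source p)).inter_closure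
            ⟨⟨hpU, mem_extChartAt_source p⟩, hpZ⟩
        refine closure_mono ?_ (mem_closure_image (continuousAt_extChartAt (I := 𝓡∂ n) p) h1)
        rintro _ ⟨x, hx, rfl⟩
        exact mem_dom hx.1.2 ⟨hx.1.1, hx.2⟩
      have e1 : ∀ y ∈ dom n p (U ∩ Z), lX n Φ p y = y := by
        intro y hy
        unfold lX
        rw [hZ' _ hy.2.2, (xc n p).right_inv hy.1]
      have e2 : ∀ y ∈ dom n p (U ∩ Z), Jac (lX n Φ p) y = 1 := by
        intro y hy
        rw [← push_jac_id (hS.subset hy)]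
        ext i j
        exact hS.pd_congr (fun z hz => by simp only [e1 z hz]) hy j
      have e3 : ∀ y ∈ dom n p (U ∩ Z), lσ P Q p y = 0 := by
        intro y hy
        have a1 := congrFun (congrFun (h.pull y (hSD hy)) 0) 0
        rw [e1 y hy, e2 y hy, Matrix.transpose_one, Matrix.one_mul, Matrix.mul_one] at a1
        have a2 : 0 < (P.loc p).g y 0 0 := (h.pos' y (hSD hy)).diag_pos
        have a4 : Real.exp (2 * lσ P Q p y) * (P.loc p).g y 0 0 = 1 * (P.loc p).g y 0 0 := by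
          rw [one_mul]; exact a1
        have := Real.exp_eq_one_iff _ |>.1 (mul_right_cancel₀ a2.ne' a4)
        linarith
      have e4 : ∀ i, unk (lX n Φ p) (lσ P Q p) i (xc n p p) = 0 := by
        intro i
        have a1 := (((h.unk_sm i).continuousOn _ hx).mono hSD).mem_closure_image hcl
        refine closure_minimal (t := {0}) ?_ isClosed_singleton a1
        rintro _ ⟨y, hy, rfl⟩
        rcases i with k | ⟨k, l⟩ | k
        · show lX n Φ p y k - y k = 0
          rw [e1 y hy, sub_self]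
        · show Jac (lX n Φ p) y k l - dl k l = 0
          rw [e2 y hy, Matrix.one_apply, dl, sub_self]
        · show pd k (lσ P Q p) y = 0
          rw [hS.pd_congr (g := fun _ => (0 : ℝ)) e3 hy k, pd_const]
      refine near_id hΦ.continuous hp (h.local_id hn hx ?_ ?_ fun k => e4 (Sum.inr (Sum.inr k)))
      · ext k
        exact sub_eq_zero.1 (e4 (Sum.inl k))
      · ext k l
        rw [Matrix.one_apply]
        exact sub_eq_zero.1 (e4 (Sum.inr (Sum.inl (k, l))))
  intro x hx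
  have h1 : Φ =ᶠ[𝓝 x] id := hWZ hx
  have h2 : Φ x = x := h1.self_of_nhds
  refine ⟨?_, h2⟩
  have h3 : TM.cChart_D (n := n) Φ x = ContinuousLinearMap.id ℝ (E n) := by
    unfold TM.cChart_D
    rw [h1.mfderiv_eq, mfderiv_id]
    rfl
  have h4 : gI Q.g x (ev 0) (ev 0) =
      gI P.g (Φ x) (TM.cChart_D Φ x (ev 0)) (TM.cChart_D Φ x (ev 0)) := hmet x _ _
  have h5 : gI Q.g x (ev 0) (ev 0) = c x * gI P.g x (ev 0) (ev 0) := hc x hx _ _
  rw [h3, h2, h5] at h4
  have h6 : 0 < gI P.g x (ev 0) (ev 0) := gI_pos _ _ _ (by simp)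
  exact mul_right_cancel₀ h6.ne' (h4.trans (one_mul _).symm)

theorem main (hn : 3 ≤ n) (hN : 1 ≤ N) [T2Space M] [CompactSpace M] [ConnectedSpace M]
    [BorelSpace M] {Γ : Set M} (hΓ : Patch (𝓡∂ n) Γ) :
    Question (𝓡∂ n) (Fib N) (bs n) (hp n) Γ ∧ More (𝓡∂ n) (Fib N) (bs n) (hp n) Γ := by
  refine ⟨question hn hN hΓ, wellDef (by omega) hΓ.bd Γ, fun P Q h => ?_,
    fun M' _ _ _ _ _ _ _ _ Γ' hΓ' => two hn hN hΓ hΓ'⟩
  obtain ⟨Φ, U, hR⟩ := question hn hN hΓ P Q h
  exact ⟨Φ, U, hR, fun W c hW hWc hne hc => rigid (P := one P) (Q := one Q) hn Φ.contMDiff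
    hR.2.2.1 hΓ (fun x hx => (hR.2.1 x hx).1) hW hWc hne hc⟩

end Vale.Agent.N088
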